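import Mathlib
import Vale.Agent.N150L.Br

open Filter Set Real Matrix

namespace Vale.Agent.Results.P150.A0Dynamics

open Vale.Agent.N150L

/-- Zero-field SK model: `mu` is the Gibbs measure, `heat` the heat-bath generator
`∑ i, (Q i - I)`, `tmix β g L ε` the mixing time of `exp (t L)`, `kmix` the mixing time of the
discrete chain, `Like K β g` the class of the reversible dynamics whose rates are within the factor
`K` of the heat-bath rates.
(0) The objects: the class is the heat-bath dynamics for `K = 1` and holds the Metropolis dynamics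
for `K = 2`; an attempt resamples a uniform site; the gap is the least nonzero point of the spectrum
of `-L`; the mixing times are attained.
(1) The regimes `β = 1`, `β > 1` for the whole class, all levels `ε < 1 / 2`, both clocks.
(2) Heat bath, `β < 1`: one lower constant for all levels `ε < 1`.
(3) The logarithms of the three time scales are within `w n √n` of one nonrandom sequence. -/
theorem result :
    (∀ (n : ℕ) (β : ℝ) (g : Dis n), 0 < n →
      (∀ L, Like 1 β g L ↔ L = heat β g) ∧ Like 2 β g (metro β g) ∧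
      step 1 (heat β g) = (n : ℝ)⁻¹ • ∑ i, Q β g i ∧
      ∀ K L, 1 ≤ K → Like K β g L → Stoch (step K L) ∧
        (∀ t, 0 ≤ t → Stoch (ker L t)) ∧
        (∀ f, L *ᵥ f = 0 → ∀ x y, f x = f y) ∧ IsLeast (spec L) (gap L) ∧ 0 < gap L ∧
        ∀ ε, 0 < ε → (∀ t, 0 ≤ t → (tv β g (ker L t) ≤ ε ↔ tmix β g L ε ≤ t)) ∧
          ∀ k, tv β g (step K L ^ k) ≤ ε ↔ kmix β g (step K L) ε ≤ k) ∧
    (∀ K β ε : ℝ, 1 ≤ K → 0 ≤ β → 0 < ε → ε < 1 / 2 →
      (β = 1 → ∃ C : ℝ, 0 < C ∧ ∀ η : ℝ, 0 < η → Unif K β ε fun n r t k => ∀ u ∈ [r, t, k],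
        u ∈ Icc ((n : ℝ) ^ (2 / 3 : ℝ) / (C * log n ^ 4)) ((n : ℝ) ^ (2 / 3 + η))) ∧
      (1 < β → ∃ c : ℝ, 0 < c ∧ ∀ η : ℝ, 0 < η → Unif K β ε fun n r t k => ∀ u ∈ [r, t, k],
        u ∈ Icc (exp (c * n)) (exp ((2 * √(log 2) * (β - 1) + η) * n)))) ∧
    (∀ β : ℝ, 0 ≤ β → β < 1 → ∃ c : ℝ, 0 < c ∧ ∀ ε : ℝ, 0 < ε → ε < 1 →
      Unif 1 β ε fun n _ t k => ∀ u ∈ [t, k], c * log n ≤ u) ∧
    (∀ β : ℝ, 0 ≤ β → ∃ a : ℕ → ℝ, ∀ K ε : ℝ, 1 ≤ K → 0 < ε → ε < 1 / 2 →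
      ∀ w : ℕ → ℝ, Tendsto w atTop atTop →
      Unif K β ε fun n r t k => ∀ u ∈ [r, t, k], |log u - a n| ≤ w n * √n) := by
  refine ⟨zero, fun K β ε a b c d => (two K β ε a b c d).2, fun β h0 h1 => ?_, five⟩
  obtain ⟨c, C, hc, h⟩ := four β h0 h1
  exact ⟨c, hc, fun ε e0 e1 => P150.MainThm.whp_mono (h ε e0 e1)
    (.of_forall fun _ _ hg L hL u hu => (hg L hL u hu).1)⟩

end Vale.Agent.Results.P150.A0Dynamics
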